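import Vale.Agent.P235A.Att
import Vale.Agent.P235.Comp.Final

/-! P235: clique sums along a tree with boundedly many levels. The induction on the level, and the
levels of bounded treewidth. -/

namespace Vale.Agent.P235T

open SimpleGraph Vale.Agent.P235 Vale.Agent.P235.H134 Vale.Agent.P235.K5 Vale.Agent.P235U
open Vale.Agent.P235L Vale.Agent.P235A

/-- connected subgraphs of almost embeddable graphs -/
theorem almost_sub (a g p w : ℕ) : ∃ C : ℝ, ∀ (V W : Type) [Finite V] [Finite W]
    (H : SimpleGraph V) (G : SimpleGraph W) (φ : W → V), G.Connected → Function.Injective φ →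
    (∀ x y, G.Adj x y → H.Adj (φ x) (φ y)) → AlmostEmb a g p w H → DistortionLE G C := by
  obtain ⟨C, hC⟩ := almost (a + 1) g p w
  refine ⟨C, fun V W _ _ H G φ hc hφ hadj h => ?_⟩
  obtain ⟨x0⟩ := hc.nonempty
  let K : SimpleGraph V := fromRel fun u v => H.Adj u v ∨ u = φ x0
  have hK : K.Connected := by
    have : Nonempty V := ⟨φ x0⟩
    have key : ∀ u, K.Reachable (φ x0) u := fun u => by
      by_cases e : φ x0 = u
      · rw [e]
      · exact Adj.reachable ((fromRel_adj _ _ _).2 ⟨e, Or.inl (Or.inr rfl)⟩)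
    exact ⟨fun u v => (key u).symm.trans (key v)⟩
  refine (hC V K hK ?_).emb φ hφ (fun x y hxy => (fromRel_adj _ _ _).2
    ⟨(hadj x y hxy).ne, Or.inl (Or.inl (hadj x y hxy))⟩) hK hc
  obtain ⟨A, G₀, n, x, B, h1, h2, h3⟩ := h
  refine ⟨insert (φ x0) A, G₀, n, x, B, (Set.ncard_insert_le _ _).trans (by omega),
    ⟨fun u v huv hu hv => ?_, h2.inj, h2.root, h2.card, h2.conv, h2.disj, h2.meet⟩, h3⟩
  rcases ((fromRel_adj _ _ _).1 huv).2 with (e | e) | (e | e)
  · exact h2.edge u v e (fun h => hu (Or.inr h)) (fun h => hv (Or.inr h))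
  · exact absurd (Or.inl e) hu
  · exact h2.edge u v e.symm (fun h => hu (Or.inr h)) (fun h => hv (Or.inr h))
  · exact absurd (Or.inl e) hv

/-- cliques are bounded if `c₁` is bounded on all connected subgraphs -/
theorem clique_bd (A : ℝ) : ∃ N : ℕ, ∀ (V : Type) [Finite V] (H : SimpleGraph V) (S C : Set V),
    (∀ (W : Type) [Finite W] (G : SimpleGraph W) (φ : W → S), G.Connected →
      Function.Injective φ → (∀ x y, G.Adj x y → (H.induce S).Adj (φ x) (φ y)) →
      DistortionLE G A) → C ⊆ S → (∀ u ∈ C, ∀ v ∈ C, u ≠ v → H.Adj u v) → C.ncard ≤ N := by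
  obtain ⟨N, hN⟩ := complete_unbounded A
  refine ⟨N, fun V _ H S C hA hCS hq => ?_⟩
  by_contra hlt
  rw [← Nat.card_coe_set_eq] at hlt
  have : Nonempty (Fin (Nat.card C)) := ⟨⟨0, by omega⟩⟩
  let e := (Finite.equivFin C).symm
  have he : ∀ i j, (e i).1 = (e j).1 → i = j := fun i j h' => e.injective (Subtype.ext h')
  refine hN (Nat.card C) (by omega) (hA _ ⊤ (fun i => ⟨(e i).1, hCS (e i).2⟩)
    ⟨fun i j => ?_⟩ (fun i j h' => he i j (congrArg (fun z : S => z.1) h'))
    (fun i j hij => hq _ (e i).2 _ (e j).2 fun h' => hij (he i j h')))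
  by_cases hij : i = j
  · rw [hij]
  · exact Adj.reachable hij

variable {V : Type} {H : SimpleGraph V} {m n : ℕ} {B : ℕ → Set V} {T : BTree n B} {lev : ℕ → ℕ}

/-- the vertices which appear in pieces of treewidth at most `k` -/
theorem tw_cls [Finite V] {k : ℕ} (h : Glued m H n B) (P : ℕ → Prop)
    (hk : ∀ t < n, P t → TreewidthLE (H.induce (B t)) k) :
    ∀ t, t ≤ n → TreewidthLE (H.induce {v | P (h.it v) ∧ h.it v < t}) k := by
  intro t
  induction t with
  | zero =>
    intro _
    refine tw_small ?_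
    have : {v | P (h.it v) ∧ h.it v < 0} = ∅ := Set.eq_empty_of_forall_notMem fun v hv => by
      have := hv.2
      omega
    rw [this, Set.ncard_empty]
    omega
  | succ t ih =>
    intro ht
    have ht' : t < n := by omega
    by_cases hP : P t
    · have e : {v | P (h.it v) ∧ h.it v < t + 1} =
          {v | P (h.it v) ∧ h.it v < t} ∪ {v | v ∈ B t ∧ P (h.it v)} := by
        ext v
        constructor
        · rintro ⟨h1, h2⟩
          rcases Nat.lt_succ_iff_lt_or_eq.1 h2 with h3 | h3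
          · exact Or.inl ⟨h1, h3⟩
          · exact Or.inr ⟨h3 ▸ h.it_mem v, h1⟩
        · rintro (⟨h1, h2⟩ | ⟨h1, h2⟩)
          · exact ⟨h1, by omega⟩
          · exact ⟨h2, Nat.lt_succ_of_le (h.it_le ht' h1)⟩
      rw [e]
      refine tw_union (ih ht'.le) ?_ ?_ ?_
      · exact TreewidthLE.comap
          (fun z : {v | v ∈ B t ∧ P (h.it v)} => (⟨z.1, z.2.1⟩ : B t))
          (fun a b e => Subtype.ext (congrArg (fun z : B t => z.1) e)) (fun a b h => h)
          (hk t ht' hP)
      · intro u hu v hv huv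
        exact h.clique t ht' u ((h.mem_adh_iff ht').2 ⟨hu.2.1, hu.1.2⟩) v
          ((h.mem_adh_iff ht').2 ⟨hv.2.1, hv.1.2⟩) huv
      · intro u hu hu' v hv hv' huv
        exact h.sep t ht' v u hv.1 (fun a => hv' ⟨hv.2, (h.mem_bef_iff ht'.le).1 a⟩)
          ((h.mem_bef_iff ht'.le).2 hu.2) (fun a => hu' ⟨a, hu.1⟩) huv.symm
    · have e : {v | P (h.it v) ∧ h.it v < t + 1} = {v | P (h.it v) ∧ h.it v < t} := by
        ext v
        constructor
        · rintro ⟨h1, h2⟩
          rcases Nat.lt_succ_iff_lt_or_eq.1 h2 with h3 | h3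
          · exact ⟨h1, h3⟩
          · exact absurd (h3 ▸ h1) hP
        · rintro ⟨h1, h2⟩
          exact ⟨h1, by omega⟩
      rw [e]
      exact ih ht'.le

theorem lev_mono (hm : ∀ t < n, lev (T.par t) ≤ lev t) {a : ℕ} :
    ∀ b, b < n → T.Desc a b → lev a ≤ lev b := by
  intro b
  induction b using Nat.strong_induction_on with
  | _ b ih =>
    intro hb hab
    by_cases e : a = b
    · rw [e]
    · have h1 := hab.le
      have h2 := T.par_lt b (by omega) hb
      exact (ih _ h2 (h2.trans hb) (hab.of_ne e)).trans (hm b hb)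

/-- the bound `A` for the graphs inside one class of nodes of the same level -/
def ClsBd (A : ℝ) (h : Glued m H n B) (T : BTree n B) (lev : ℕ → ℕ) (r : ℕ) : Prop :=
  ∀ (W : Type) [Finite W] (G : SimpleGraph W) (φ : W → V), G.Connected → Function.Injective φ →
    (∀ x y, G.Adj x y → H.Adj (φ x) (φ y)) →
    (∀ x, T.Desc r (h.it (φ x)) ∧ lev (h.it (φ x)) = lev r) → DistortionLE G A

theorem ClsBd.mono {A A' : ℝ} {h : Glued m H n B} {r : ℕ} (h1 : ClsBd A h T lev r)
    (hA : A ≤ A') : ClsBd A' h T lev r :=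
  fun W _ G φ a b c d => (h1 W G φ a b c d).mono hA

theorem tw_case (k : ℕ) : ∃ C : ℝ, ∀ (V : Type) [Finite V] (H : SimpleGraph V) (m n : ℕ)
    (B : ℕ → Set V) (h : Glued m H n B) (T : BTree n B) (lev : ℕ → ℕ) (r : ℕ),
    (∀ t < n, lev t = lev r → TreewidthLE (H.induce (B t)) k) → ClsBd C h T lev r := by
  obtain ⟨D, hD⟩ := H957.tw_bounded k
  refine ⟨D, fun V _ H m n B h T lev r hk W _ G φ hc hφ hadj hx => hD W G hc ?_⟩
  exact TreewidthLE.comap
    (fun z : W => (⟨φ z, (hx z).2, h.it_lt _⟩ : {v | lev (h.it v) = lev r ∧ h.it v < n}))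
    (fun a b e => hφ (congrArg (fun z : {v | lev (h.it v) = lev r ∧ h.it v < n} => z.1) e))
    (fun a b h => hadj a b h) (tw_cls h (fun t => lev t = lev r) hk n le_rfl)

theorem exists_step (hm : ∀ t < n, lev (T.par t) ≤ lev t) {r : ℕ} : ∀ t, t < n → T.Desc r t →
    lev t ≠ lev r → ∃ s, 0 < s ∧ s < n ∧ lev (T.par s) = lev r ∧ lev r < lev s ∧ T.Desc s t := by
  intro t
  induction t using Nat.strong_induction_on with
  | _ t ih =>
    intro ht hrt hl
    have e : r ≠ t := fun e => hl (by rw [e])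
    have h1 := hrt.le
    have h2 := T.par_lt t (by omega) ht
    by_cases h3 : lev (T.par t) = lev r
    · have := hm t ht
      exact ⟨t, by omega, ht, h3, by omega, BTree.Desc.refl t⟩
    · obtain ⟨s, a, b, c, d, f⟩ := ih _ h2 (h2.trans ht) (hrt.of_ne e) h3
      exact ⟨s, a, b, c, d, f.par⟩

/-- the induction on the level -/
theorem level_ind (A : ℝ) (j : ℕ) : ∃ C : ℝ, ∀ (V : Type) [Finite V] (H : SimpleGraph V)
    (m n : ℕ) (B : ℕ → Set V) (h : Glued m H n B) (T : BTree n B) (lev : ℕ → ℕ) (q : ℕ),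
    (∀ t < n, lev (T.par t) ≤ lev t) → (∀ t < n, lev t ≤ q) → (∀ r < n, ClsBd A h T lev r) →
    ∀ r < n, q < lev r + j → ∀ (W : Type) [Finite W] (G : SimpleGraph W) (φ : W → V),
      G.Connected → Function.Injective φ → (∀ x y, G.Adj x y → H.Adj (φ x) (φ y)) →
      (∀ x, T.Desc r (h.it (φ x))) → DistortionLE G C := by
  induction j with
  | zero =>
    refine ⟨0, fun V _ H m n B h T lev q hm hq _ r hr hlt => ?_⟩
    have := hq r hr
    omega
  | succ j ih =>
    obtain ⟨C, hC⟩ := ih
    obtain ⟨K, hK⟩ := composition_free (fun C => complete_unbounded C) (max A C)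
    refine ⟨max K C, fun V _ H m n B h T lev q hm hq hA r hr hlt W _ G φ hc hφ hadj hx => ?_⟩
    let X : Set W := {x | lev (h.it (φ x)) = lev r}
    have step : ∀ u ∉ X, ∃ s, s < n ∧ lev r < lev s ∧
        (∀ z, ReachOff G X u z → φ z ∈ h.Sub T s) ∧ ∀ y ∈ attach G X u, φ y ∈ Adh B s := by
      intro u hu
      obtain ⟨s, s0, sn, s1, s2, s3⟩ := exists_step hm _ (h.it_lt (φ u)) (hx u) hu
      have hp : T.par s < n := (T.par_lt s s0 sn).trans sn
      have key : ∀ (a b : W) (ρ : G.Walk a b), (∀ z ∈ ρ.support, z ∉ X) → φ a ∈ h.Sub T s →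
          φ b ∈ h.Sub T s := by
        intro a b ρ
        induction ρ with
        | nil => exact fun _ h => h
        | @cons a c b hac ρ ih =>
          intro hρ ha
          refine ih (fun z hz => hρ z (by simp [hz])) ?_
          by_contra hc'
          have a1 := T.adh s s0 sn (h.leave ha hc' (hadj _ _ hac))
          have a2 := lev_mono hm _ hp (h.desc_of_mem (T := T) hp a1)
          have a3 := lev_mono hm _ (h.it_lt (φ c)) (hx c)
          exact hρ c (by simp) (show lev (h.it (φ c)) = lev r by omega)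
      have hsub : ∀ z, ReachOff G X u z → φ z ∈ h.Sub T s := by
        rintro z ⟨ρ, hρ⟩
        exact key u z ρ hρ s3
      refine ⟨s, sn, s2, hsub, ?_⟩
      rintro y ⟨hy, v, hv, hvy⟩
      refine h.leave (hsub v hv) (fun a => ?_) (hadj _ _ hvy)
      have a1 := lev_mono hm _ (h.it_lt (φ y)) a
      have a2 : lev (h.it (φ y)) = lev r := hy
      omega
    have h2 : ∀ u ∉ X, DistortionLE (G.induce (compSet G X u)) C := by
      intro u hu
      obtain ⟨s, sn, s2, s3, -⟩ := step u hu
      exact hC V H m n B h T lev q hm hq hA s sn (by omega) _ _ (fun z => φ z.1)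
        (comp_connected hu) (fun a b e => Subtype.ext (hφ e)) (fun a b hab => hadj _ _ hab)
        fun z => s3 z.1 z.2
    rcases X.eq_empty_or_nonempty with hX | hX
    · rw [hX] at h2
      exact (distortion_of_empty hc h2).mono (le_max_right _ _)
    · refine (hK W G hc X hX (DistortionLE.mono ?_ (le_max_left _ _))
        fun u hu => (h2 u hu).mono (le_max_right _ _)).mono (le_max_left _ _)
      refine hA r hr X (torso G X) (fun z => φ z.1) (torso_connected hc hX)
        (fun a b e => Subtype.ext (hφ e)) ?_ fun z => ⟨hx z.1, z.2⟩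
      rintro x y ⟨hne, a | ⟨u, hxu, hyu⟩⟩
      · exact hadj _ _ a
      · have hu : u ∉ X := by
          obtain ⟨-, v, hv, -⟩ := hxu
          exact ReachOff.left hv
        obtain ⟨s, sn, -, -, s4⟩ := step u hu
        exact h.clique s sn _ (s4 _ hxu) _ (s4 _ hyu) fun e => hne (Subtype.ext (hφ e))

end Vale.Agent.P235T
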