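import Vale.Agent.P235L.Defs
import Vale.Agent.P235G.E1.HDefs
import Vale.Agent.P235.K5.H12.Int

/-! P235: levels on the tree of a clique sum. -/

namespace Vale.Agent.P235T

open Vale.Agent.P235 Vale.Agent.P235.K5 Vale.Agent.P235L Vale.Agent.P235G.E1

/-- `G` is a spanning subgraph of a sum, along cliques with at most three vertices, of any number of
pieces which are drawn on a surface of Euler genus at most `g` or have treewidth at most `k` (or all
of whose quasi-4-connected minors are such). -/
def Surf3 (g k : ℕ) {V : Type} (G : SimpleGraph V) : Prop :=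
  ∃ H : SimpleGraph V, G ≤ H ∧ CliqueSum 3 (fun _ B _ => SPiece g k B ∨ QPiece g k B) H

/-- `G` is almost embeddable, or it is in `Surf3 g k` after deleting at most `a` vertices. -/
def Big (a g p w k : ℕ) {V : Type} (G : SimpleGraph V) : Prop :=
  AlmostEmb a g p w G ∨ ∃ A : Set V, A.ncard ≤ a ∧ Surf3 g k (G.induce Aᶜ)

/-- There is a set `M` of at most `c` centres such that all but at most `c` of the children of `t`
on the level of `t` are glued to `t` along a clique with at most one vertex outside `M` and the
clique along which `t` is glued to its parent. -/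
def Centred (c : ℕ) {V : Type} {n : ℕ} {B : ℕ → Set V} (T : BTree n B) (lev : ℕ → ℕ) (t : ℕ) :
    Prop :=
  ∃ M : Set V, M.ncard ≤ c ∧ {s | s < n ∧ 0 < s ∧ T.par s = t ∧ lev s = lev t ∧
    ¬ (Adh B s \ (M ∪ Adh B t)).Subsingleton}.ncard ≤ c

/-- The nodes of the rooted tree `T` of the pieces `H[B t]` carry levels `lev t ≤ q` which do not
decrease from a node to its children, and every level `i` is of one of three kinds: all pieces of
level `i` have treewidth at most `k`; or all of them are `Big` and `Centred`; or all of them are
glued to a parent of level `i` along at most two vertices, and each of them is in `Surf3` (with any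
children) or is `Big` and `Centred`. -/
structure Levels (a g p w k c q : ℕ) {V : Type} (H : SimpleGraph V) {n : ℕ} {B : ℕ → Set V}
    (T : BTree n B) (lev : ℕ → ℕ) : Prop where
  mono : ∀ t < n, lev (T.par t) ≤ lev t
  le : ∀ t < n, lev t ≤ q
  kind : ∀ i, (∀ t < n, lev t = i → TreewidthLE (H.induce (B t)) k) ∨
    (∀ t < n, lev t = i → Big a g p w k (H.induce (B t)) ∧ Centred c T lev t) ∨
    ∀ t < n, lev t = i → (lev (T.par t) = i → (Adh B t).ncard ≤ 2) ∧
      (Surf3 g k (H.induce (B t)) ∨ Big a g p w k (H.induce (B t)) ∧ Centred c T lev t)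

end Vale.Agent.P235T
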