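import Vale.Agent.P235T.Core
import Vale.Agent.P235T.Defs
import Vale.Agent.P235T.Star
import Vale.Agent.P235G.E1.All
import Vale.Agent.P235.H237.CX.Cx4
import Vale.Agent.P235.CX.H89.Three
import Vale.Agent.P235.H141.CX.NG
import Vale.Agent.P235.K5.GX.H43.CX5
import Vale.Agent.P235.K5.H266.Last
import Mathlib.Data.Set.Card.Arithmetic

/-! P235: clique sums along a tree with boundedly many levels. -/

namespace Vale.Agent.P235T

open SimpleGraph Vale.Agent.P235 Vale.Agent.P235.H134 Vale.Agent.P235.K5 Vale.Agent.P235U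
open Vale.Agent.P235L Vale.Agent.P235A Vale.Agent.P235G.E1

theorem piece_comap {g k : ℕ} {W V : Type} [Finite W] {G : SimpleGraph W} {H : SimpleGraph V}
    (φ : W → V) (hφ : Function.Injective φ) (hadj : ∀ x y, G.Adj x y → H.Adj (φ x) (φ y))
    (h : SPiece g k H ∨ QPiece g k H) : SPiece g k G ∨ QPiece g k G := by
  rcases h with (⟨U, hU, K, f, h1, h2, h3, h4⟩ | h) | h
  · exact Or.inl (Or.inl ⟨U, hU, K, f ∘ φ, h1, h2, h3.comp hφ,
      fun a b hab => h4 _ _ (hadj a b hab)⟩)
  · exact Or.inl (Or.inr (TreewidthLE.comap φ hφ hadj h))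
  · exact Or.inr fun U _ M h1 h2 h3 => h U M h1 h2 (minor_push φ hφ hadj h3)

theorem surf3_comap {g k : ℕ} {W V : Type} [Finite W] [Finite V] {G : SimpleGraph W}
    {H : SimpleGraph V} (φ : W → V) (hφ : Function.Injective φ)
    (hadj : ∀ x y, G.Adj x y → H.Adj (φ x) (φ y)) (h : Surf3 g k H) : Surf3 g k G := by
  obtain ⟨K, hK, n, B, h1, h2⟩ := h
  have key : ∀ t x, x ∈ Adh (fun t => φ ⁻¹' B t) t → φ x ∈ Adh B t := fun t x hx => hx
  refine ⟨K.comap φ, fun x y hxy => hK (hadj x y hxy), n, fun t => φ ⁻¹' B t,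
    ⟨fun x => h1.cover (φ x), fun t ht => ?_, fun t ht u hu v hv huv => ?_,
      fun t ht u v a b c d => h1.sep t ht (φ u) (φ v) a b c d⟩, fun t ht => ?_⟩
  · exact (Set.ncard_le_ncard_of_injOn φ (key t) hφ.injOn).trans (h1.card t ht)
  · exact h1.clique t ht _ (key t u hu) _ (key t v hv) (hφ.ne huv)
  · exact piece_comap (H := K.induce (B t)) (fun z : φ ⁻¹' B t => ⟨φ z.1, z.2⟩)
      (fun a b e => Subtype.ext (hφ (congrArg (fun z : B t => z.1) e))) (fun a b hab => hab)
      (h2 t ht)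

/-- connected subgraphs of big pieces -/
theorem piece_sub (a g p w k : ℕ) : ∃ C : ℝ, ∀ (V : Type) [Finite V] (H : SimpleGraph V),
    Big a g p w k H → ∀ (W : Type) [Finite W] (G : SimpleGraph W) (φ : W → V), G.Connected →
    Function.Injective φ → (∀ x y, G.Adj x y → H.Adj (φ x) (φ y)) → DistortionLE G C := by
  obtain ⟨A₁, h1⟩ := almost_sub a g p w
  obtain ⟨A₂, h2⟩ := Vale.Agent.P235G.E1.final.1 g k
  obtain ⟨C₀, -, hap⟩ := apex_log'
  refine ⟨max A₁ (C₀ * (max A₂ 0 + Real.log (a + 2))), fun V _ H h W _ G φ hc hφ hadj => ?_⟩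
  rcases h with h | ⟨A, hA, h⟩
  · exact (h1 V W H G φ hc hφ hadj h).mono (le_max_left _ _)
  refine DistortionLE.mono (hap (max A₂ 0) (le_max_right _ _) a W G hc {x | φ x ∈ A}
    ((Set.ncard_le_ncard_of_injOn φ (fun y hy => hy) hφ.injOn).trans hA)
    fun u hu => DistortionLE.mono ?_ (le_max_left _ _)) (le_max_right _ _)
  exact (h2 _ _ (comp_connected hu) (Or.inr (Or.inr (surf3_comap (H := H.induce Aᶜ)
    (fun z : compSet G {x | φ x ∈ A} u =>
      (⟨φ z.1, ReachOff.right (X := {x | φ x ∈ A}) z.2⟩ : ↥Aᶜ))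
    (fun a b e => Subtype.ext (hφ (congrArg (fun z : ↥Aᶜ => z.1) e)))
    (fun a b hab => hadj _ _ hab) h)))).2.1

section pull

variable {V W : Type} {H : SimpleGraph V} {m n : ℕ} {B : ℕ → Set V} {T : BTree n B}
  {lev : ℕ → ℕ} {r : ℕ} {φ : W → V}

/-- the bags of the class of `r`, pulled back -/
def pull (T : BTree n B) (lev : ℕ → ℕ) (r : ℕ) (φ : W → V) (t : ℕ) : Set W :=
  {x | (T.Desc r t ∧ lev t = lev r) ∧ φ x ∈ B t}

theorem pull_adh {t : ℕ} {x : W} (hx : x ∈ Adh (pull T lev r φ) t) : φ x ∈ Adh B t := by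
  obtain ⟨h1, s, hs, h2⟩ := hx
  exact ⟨h1.2, s, hs, h2.2⟩

theorem pull_par (hm : ∀ t < n, lev (T.par t) ≤ lev t) {t : ℕ} (ht : t < n) {x : W}
    (hx : x ∈ Adh (pull T lev r φ) t) : 0 < t ∧ T.par t < t ∧ lev t = lev r ∧
      T.Desc r (T.par t) ∧ lev (T.par t) = lev r := by
  obtain ⟨h1, s, hs, h2⟩ := hx
  have a1 : r ≤ s := h2.1.1.le
  have a2 := T.par_lt t (by omega) ht
  have a3 : T.Desc r (T.par t) := h1.1.1.of_ne (by omega)
  exact ⟨by omega, a2, h1.1.2, a3,
    le_antisymm (h1.1.2 ▸ hm t ht) (lev_mono hm _ (a2.trans ht) a3)⟩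

theorem pull_glued [Finite V] (h : Glued m H n B) (hm : ∀ t < n, lev (T.par t) ≤ lev t)
    (hφ : Function.Injective φ)
    (hx : ∀ x, T.Desc r (h.it (φ x)) ∧ lev (h.it (φ x)) = lev r) {b : ℕ} {S : Set V}
    (hS : ∀ x, φ x ∉ S) (hb : ∀ t < n, T.Desc r t → lev t = lev r → lev (T.par t) = lev r →
      (Adh B t \ S).ncard ≤ b) :
    Glued b (H.comap φ) n (pull T lev r φ) := by
  have hit : ∀ x, x ∈ pull T lev r φ (h.it (φ x)) := fun x => ⟨hx x, h.it_mem _⟩
  refine ⟨fun x => ⟨_, h.it_lt _, hit x⟩, fun t ht => ?_, fun t ht u hu v hv huv => ?_,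
    fun t ht u v hu hu' hv hv' => ?_⟩
  · rcases (Adh (pull T lev r φ) t).eq_empty_or_nonempty with h0 | ⟨x, h1⟩
    · rw [h0, Set.ncard_empty]
      omega
    obtain ⟨-, -, a1, a0, a2⟩ := pull_par hm ht h1
    exact le_trans (Set.ncard_le_ncard_of_injOn (t := Adh B t \ S) φ
      (fun y hy => ⟨pull_adh hy, hS y⟩) hφ.injOn) (hb t ht a0.par a1 a2)
  · exact h.clique t ht _ (pull_adh hu) _ (pull_adh hv) (hφ.ne huv)
  · obtain ⟨s, hs, h2⟩ := hv
    exact h.sep t ht (φ u) (φ v) hu.2
      (fun a => hu' ⟨_, (h.mem_bef_iff ht.le).1 a, hit u⟩) ⟨s, hs, h2.2⟩ fun a => hv' ⟨hu.1, a⟩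

end pull

theorem dist_empty {V : Type} [IsEmpty V] (G : SimpleGraph V) (C : ℝ) : DistortionLE G C := by
  intro ℓ _
  exact ⟨Unit, inferInstance, 0, fun x => isEmptyElim x, fun x => isEmptyElim x⟩

theorem cen_case (a g p w k c : ℕ) : ∃ C : ℝ, ∀ (V : Type) [Finite V] (H : SimpleGraph V)
    (m n : ℕ) (B : ℕ → Set V) (h : Glued m H n B) (T : BTree n B) (lev : ℕ → ℕ) (r : ℕ)
    (M : ℕ → Set V), (∀ t < n, lev (T.par t) ≤ lev t) →
    (∀ t < n, lev t = lev r → Big a g p w k (H.induce (B t)) ∧ (M t).ncard ≤ c ∧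
      {s | s < n ∧ 0 < s ∧ T.par s = t ∧ lev s = lev r ∧
        ¬ (Adh B s \ (M t ∪ Adh B t)).Subsingleton}.ncard ≤ c) → ClsBd C h T lev r := by
  classical
  obtain ⟨A, hA⟩ := piece_sub a g p w k
  obtain ⟨N, hN⟩ := clique_bd A
  obtain ⟨K, -, hK⟩ := K5.GX.H43.CX.centre
    (H237.CX.cx4 (Vale.Agent.P235.CX.H89.cx3 H141.CX.ngStmt)) (max A 1) (N + (c + c * N))
    (le_max_right _ _)
  refine ⟨K, fun V _ H m n B h T lev r M hm hk W _ G φ hc hφ hadj hx => ?_⟩
  have hadh : ∀ t < n, lev t = lev r → (Adh B t).ncard ≤ N := fun t ht a1 =>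
    hN V H (B t) (Adh B t) (hA _ _ (hk t ht a1).1) (fun v hv => hv.1) (h.clique t ht)
  let bad : ℕ → Set ℕ := fun t => {s | s < n ∧ 0 < s ∧ T.par s = t ∧ lev s = lev r ∧
    ¬ (Adh B s \ (M t ∪ Adh B t)).Subsingleton}
  have hfin : ∀ t, (bad t).Finite := fun t => (Set.finite_lt_nat n).subset fun s hs => hs.1
  let M₁ : ℕ → Set V := fun t => M t ∪ ⋃ s ∈ (hfin t).toFinset, Adh B s
  have hM₁ : ∀ t < n, lev t = lev r → (M₁ t).ncard ≤ c + c * N := by
    intro t ht a1
    obtain ⟨-, b1, b2⟩ := hk t ht a1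
    refine (Set.ncard_union_le _ _).trans (add_le_add b1 ?_)
    refine (Finset.set_ncard_biUnion_le _ _).trans ?_
    refine (Finset.sum_le_card_nsmul _ _ N fun s hs => ?_).trans ?_
    · have := (hfin t).mem_toFinset.1 hs
      exact hadh s this.1 this.2.2.2.1
    · rw [smul_eq_mul, ← Set.ncard_eq_toFinset_card _ (hfin t)]
      exact Nat.mul_le_mul_right _ b2
  have hle : G ≤ H.comap φ := fun x y hxy => hadj x y hxy
  have hg : Glued (N + (c + c * N)) (H.comap φ) n (pull T lev r φ) :=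
    pull_glued (S := ∅) h hm hφ hx (fun _ a => a) fun t ht _ a1 _ => by
      rw [Set.sdiff_empty]
      exact (hadh t ht a1).trans (Nat.le_add_right _ _)
  refine hK W G (H.comap φ) n (pull T lev r φ)
    (fun t => {x | x ∈ pull T lev r φ t ∧ φ x ∈ M₁ t}) hle hc hg
    (fun t ht => ⟨fun x hx' => hx'.1, ?_⟩) (fun t ht => ?_) fun u hu h0 => ?_
  · rcases ({x | x ∈ pull T lev r φ t ∧ φ x ∈ M₁ t} : Set W).eq_empty_or_nonempty with
      h0 | ⟨x, h1⟩
    · rw [h0, Set.ncard_empty]
      omega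
    exact ((Set.ncard_le_ncard_of_injOn φ (fun y hy => hy.2) hφ.injOn).trans
      (hM₁ t ht h1.1.1.2)).trans (Nat.le_add_left _ _)
  · rcases (pull T lev r φ t).eq_empty_or_nonempty with he | ⟨x, h1⟩
    · have : IsEmpty (pull T lev r φ t) := by
        rw [Set.isEmpty_coe_sort]
        exact he
      exact dist_empty _ _
    · have : Nonempty (pull T lev r φ t) := ⟨⟨x, h1⟩⟩
      exact (hA _ _ (hk t ht h1.1.2).1 _ _ (fun z : pull T lev r φ t => (⟨φ z.1, z.2.2⟩ : B t))
        ⟨K5.H266.bag_conn hg (hc.mono hle).preconnected t ht⟩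
        (fun a b e => Subtype.ext (hφ (congrArg (fun z : B t => z.1) e)))
        (fun a b hab => hab)).mono (le_max_left _ _)
  · rcases (Adh (pull T lev r φ) u).eq_empty_or_nonempty with he | ⟨x, h1⟩
    · refine ⟨0, h0, ?_, ?_⟩
      · rw [he]
        exact Set.empty_subset _
      · rw [he, Set.empty_sdiff]
        exact Set.subsingleton_empty
    obtain ⟨-, a1, a2, a3, a4⟩ := pull_par hm hu h1
    have hp : T.par u < n := a1.trans hu
    have hsub : ∀ y ∈ Adh (pull T lev r φ) u, y ∈ pull T lev r φ (T.par u) := fun y hy =>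
      ⟨⟨a3, a4⟩, T.adh u h0 hu (pull_adh hy)⟩
    refine ⟨T.par u, a1, hsub, ?_⟩
    by_cases hb : (Adh B u \ (M (T.par u) ∪ Adh B (T.par u))).Subsingleton
    · have key : ∀ y ∈ Adh (pull T lev r φ) u \ (Adh (pull T lev r φ) (T.par u) ∪
          {x | x ∈ pull T lev r φ (T.par u) ∧ φ x ∈ M₁ (T.par u)}),
          φ y ∈ Adh B u \ (M (T.par u) ∪ Adh B (T.par u)) := by
        rintro y ⟨y1, y2⟩
        refine ⟨pull_adh y1, ?_⟩
        rintro (y3 | y3)
        · exact y2 (Or.inr ⟨hsub y y1, Or.inl y3⟩)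
        · exact y2 (Or.inl ⟨hsub y y1, _, ((h.mem_adh_iff hp).1 y3).2, hx y, h.it_mem _⟩)
      exact fun y hy z hz => hφ (hb (key y hy) (key z hz))
    · intro y hy
      refine absurd (Or.inr ⟨hsub y hy.1, Or.inr ?_⟩) hy.2
      exact Set.mem_biUnion ((hfin _).mem_toFinset.2 ⟨hu, h0, rfl, a2, hb⟩) (pull_adh hy.1)

theorem exists_child {V : Type} {n : ℕ} {B : ℕ → Set V} {T : BTree n B} {a : ℕ} :
    ∀ b, b < n → T.Desc a b → a ≠ b → ∃ c, T.par c = a ∧ a < c ∧ T.Desc c b := by
  intro b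
  induction b using Nat.strong_induction_on with
  | _ b ih =>
    intro hb hab e
    have h1 := hab.le
    have h2 := T.par_lt b (by omega) hb
    by_cases e' : a = T.par b
    · exact ⟨b, e'.symm, by omega, BTree.Desc.refl b⟩
    · obtain ⟨c, c1, c2, c3⟩ := ih _ h2 (h2.trans hb) (hab.of_ne e) e'
      exact ⟨c, c1, c2, c3.par⟩

/-- a sum along exactly two vertices is an edge sum -/
theorem msum_of {P : ∀ V : Type, SimpleGraph V → SimpleGraph V → Prop} {W : Type} [Finite W]
    {H E : SimpleGraph W} {n : ℕ} {B : ℕ → Set W} (hg : Glued 2 H n B) (hEH : E ≤ H)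
    (hE : ∀ t < n, ∀ x ∈ Adh B t, ∀ y ∈ Adh B t, x ≠ y → E.Adj x y)
    (hno : ∀ t < n, (∃ x ∈ B t, x ∉ Bef B t) → (∃ y ∈ Bef B t, y ∉ B t) →
      ¬ (Adh B t).Subsingleton)
    (h0 : ∀ (U : Type) [IsEmpty U] (G F : SimpleGraph U), P U G F)
    (hP : ∀ t < n, ∀ (U : Type) [Finite U] (ι : U → W), Function.Injective ι →
      (∀ u, ι u ∈ B t) → P U (H.comap ι) (E.comap ι)) :
    ∀ t, t ≤ n → ∀ (U : Type) [Finite U] (ι : U → W), Function.Injective ι →
      (∀ x, x ∈ Bef B t ↔ ∃ u, ι u = x) → H141.Star.MSum P (H.comap ι) (E.comap ι) := by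
  intro t
  induction t with
  | zero =>
    intro _ U _ ι _ hr
    have : IsEmpty U := ⟨fun u => by
      obtain ⟨s, hs, -⟩ := (hr (ι u)).2 ⟨u, rfl⟩
      omega⟩
    exact .base (fun _ _ a => hEH a) (h0 U _ _)
  | succ t ih =>
    intro ht U _ ι hι hr
    have ht' : t < n := by omega
    have hun : ∀ x, x ∈ Bef B (t + 1) ↔ x ∈ Bef B t ∨ x ∈ B t := by
      intro x
      constructor
      · rintro ⟨s, hs, hx⟩
        rcases Nat.lt_succ_iff_lt_or_eq.1 hs with a | rfl
        · exact Or.inl ⟨s, a, hx⟩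
        · exact Or.inr hx
      · rintro (⟨s, hs, hx⟩ | hx)
        · exact ⟨s, by omega, hx⟩
        · exact ⟨t, by omega, hx⟩
    have hU : ∀ u, ι u ∈ Bef B t ∨ ι u ∈ B t := fun u => (hun _).1 ((hr _).2 ⟨u, rfl⟩)
    by_cases c1 : ∃ x ∈ B t, x ∉ Bef B t
    · by_cases c2 : ∃ y ∈ Bef B t, y ∉ B t
      · obtain ⟨x, hx, y, hy, hxy⟩ := Set.not_subsingleton_iff.1 (hno t ht' c1 c2)
        have e : ({x, y} : Set W) = Adh B t := by
          refine Set.eq_of_subset_of_ncard_le ?_ ?_
          · rintro z (rfl | rfl)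
            · exact hx
            · exact hy
          · rw [Set.ncard_pair hxy]
            exact hg.card t ht'
        obtain ⟨x0, rfl⟩ := (hr x).1 ((hun _).2 (Or.inr hx.1))
        obtain ⟨y0, rfl⟩ := (hr y).1 ((hun _).2 (Or.inr hy.1))
        refine .glue (A := {u | ι u ∈ Bef B t}) (B := {u | ι u ∈ B t}) (s := x0) (t := y0)
          (fun _ _ a => hEH a) (hE t ht' _ hx _ hy hxy) (Set.eq_univ_of_forall hU) ?_ ?_ ?_ ?_
        · ext u
          constructor
          · rintro ⟨a, b⟩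
            have : ι u ∈ ({ι x0, ι y0} : Set W) := by
              rw [e]
              exact ⟨b, a⟩
            exact this.imp (fun a => hι a) fun a => hι a
          · rintro (rfl | rfl)
            · exact ⟨hx.2, hx.1⟩
            · exact ⟨hy.2, hy.1⟩
        · intro a b ha hb hab
          exact hg.sep t ht' (ι b) (ι a) ((hU b).resolve_left hb) hb ((hU a).resolve_right ha) ha
            (Adj.symm hab)
        · refine ih ht'.le {u | ι u ∈ Bef B t} (fun z => ι z.1)
            (fun a b e => Subtype.ext (hι e)) fun z => ⟨fun hz => ?_, ?_⟩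
          · obtain ⟨u, rfl⟩ := (hr z).1 ((hun _).2 (Or.inl hz))
            exact ⟨⟨u, hz⟩, rfl⟩
          · rintro ⟨u, rfl⟩
            exact u.2
        · exact .base (fun _ _ a => hEH a) (hP t ht' {u | ι u ∈ B t} (fun z => ι z.1)
            (fun a b e => Subtype.ext (hι e)) fun z => z.2)
      · refine .base (fun _ _ a => hEH a) (hP t ht' U ι hι fun u => ?_)
        by_contra a
        exact c2 ⟨_, (hU u).resolve_right a, a⟩
    · refine ih ht'.le U ι hι fun x => ⟨fun hx => (hr x).1 ((hun x).2 (Or.inl hx)), fun hx => ?_⟩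
      by_contra a
      exact c1 ⟨x, ((hun x).1 ((hr x).2 hx)).resolve_left a, a⟩

theorem mix_case (a g p w k c : ℕ) : ∃ C : ℝ, ∀ (V : Type) [Finite V] (H : SimpleGraph V)
    (m n : ℕ) (B : ℕ → Set V) (h : Glued m H n B) (T : BTree n B) (lev : ℕ → ℕ) (r : ℕ)
    (M : ℕ → Set V), (∀ t < n, lev (T.par t) ≤ lev t) →
    (∀ t < n, lev t = lev r → (lev (T.par t) = lev r → (Adh B t).ncard ≤ 2) ∧
      (Surf3 g k (H.induce (B t)) ∨ Big a g p w k (H.induce (B t)) ∧ (M t).ncard ≤ c ∧
        {s | s < n ∧ 0 < s ∧ T.par s = t ∧ lev s = lev r ∧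
          ¬ (Adh B s \ (M t ∪ Adh B t)).Subsingleton}.ncard ≤ c)) → ClsBd C h T lev r := by
  classical
  obtain ⟨A, hA⟩ := piece_sub a g p w k
  obtain ⟨D, hD⟩ := Vale.Agent.P235G.E1.final.1 g k
  obtain ⟨K, -, hK⟩ := mixed
  have hK' := hK (fun _ G => G.Connected → EdgeIso G D) (fun _ G => G.Connected → DistortionLE G A)
    (max D 1) (max A 1) (c + c * 2 + 2) (le_max_right _ _) (le_max_right _ _)
    (fun V _ G hc h' => by
      intro ℓ hℓ s t hst
      obtain ⟨Ω, i1, μ, f, f1, f2⟩ := h' hc ℓ hℓ s t hst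
      exact ⟨Ω, i1, μ, f, f1, fun x y => ⟨(f2 x y).1, (f2 x y).2.trans
        (mul_le_mul_of_nonneg_right (le_max_left _ _) (norm_nonneg _))⟩⟩)
    (fun V _ G hc h' => (h' hc).mono (le_max_left _ _))
  obtain ⟨K₀, hK₀⟩ : ∃ K₀ : ℝ, ∀ (V : Type) [Finite V] (G E : SimpleGraph V), G.Connected →
      H141.Star.MSum (StarPiece (fun _ G => G.Connected → EdgeIso G D)
        (fun _ G => G.Connected → DistortionLE G A) (c + c * 2 + 2)) G E → DistortionLE G K₀ :=
    ⟨_, hK'⟩
  refine ⟨max K₀ 1, fun V _ H m n B h T lev r M hm hk => ?_⟩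
  let bad : ℕ → Set ℕ := fun t => {s | s < n ∧ 0 < s ∧ T.par s = t ∧ lev s = lev r ∧
    ¬ (Adh B s \ (M t ∪ Adh B t)).Subsingleton}
  have hfin : ∀ t, (bad t).Finite := fun t => (Set.finite_lt_nat n).subset fun s hs => hs.1
  let M₁ : ℕ → Set V := fun t => M t ∪ ⋃ s ∈ (hfin t).toFinset, Adh B s
  have hM₁ : ∀ t, lev t = lev r → (M t).ncard ≤ c → (bad t).ncard ≤ c →
      (M₁ t).ncard ≤ c + c * 2 := by
    intro t a1 b1 b2
    refine (Set.ncard_union_le _ _).trans (add_le_add b1 ?_)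
    refine (Finset.set_ncard_biUnion_le _ _).trans ?_
    refine (Finset.sum_le_card_nsmul _ _ 2 fun s hs => ?_).trans ?_
    · have := (hfin t).mem_toFinset.1 hs
      exact (hk s this.1 this.2.2.2.1).1 (by rw [this.2.2.1]; exact a1)
    · rw [smul_eq_mul, ← Set.ncard_eq_toFinset_card _ (hfin t)]
      exact Nat.mul_le_mul_right _ b2
  have main : ∀ (N : ℕ) (W : Type) [Finite W] (G : SimpleGraph W) (φ : W → V), Nat.card W < N →
      G.Connected → Function.Injective φ → (∀ x y, G.Adj x y → H.Adj (φ x) (φ y)) →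
      (∀ x, T.Desc r (h.it (φ x)) ∧ lev (h.it (φ x)) = lev r) → DistortionLE G (max K₀ 1) := by
    intro N
    induction N with
    | zero => intro W _ G φ hN; omega
    | succ N ih =>
      intro W _ G φ hN hc hφ hadj hx
      have hg : Glued 2 (H.comap φ) n (pull T lev r φ) :=
        pull_glued (S := ∅) h hm hφ hx (fun _ a => a) fun t ht _ a1 a2 => by
          rw [Set.sdiff_empty]
          exact (hk t ht a1).1 a2
      have back : ∀ t < n, ∀ x ∈ pull T lev r φ t, h.it (φ x) < t →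
          x ∈ Adh (pull T lev r φ) t := fun t _ x x1 x2 => ⟨x1, _, x2, hx x, h.it_mem _⟩
      by_cases hs : ∃ t < n, (∃ x ∈ pull T lev r φ t, x ∉ Bef (pull T lev r φ) t) ∧
          (∃ y ∈ Bef (pull T lev r φ) t, y ∉ pull T lev r φ t) ∧
          (Adh (pull T lev r φ) t).Subsingleton
      · obtain ⟨t, ht, ⟨x, x1, x2⟩, ⟨y, ⟨s, hs, y1⟩, y2⟩, hsub⟩ := hs
        let S : Set W := {z | φ z ∈ h.Sub T t}
        have xS : x ∈ S := by
          have e : h.it (φ x) = t := by
            by_contra a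
            exact x2 (back t ht x x1 (lt_of_le_of_ne (h.it_le ht x1.2) a)).2
          show T.Desc t (h.it (φ x))
          rw [e]
          exact BTree.Desc.refl t
        have yS : y ∉ S := fun a => by
          have a1 : t ≤ h.it (φ y) := BTree.Desc.le a
          have a2 := h.it_le (hs.trans ht) y1.2
          omega
        have out : ∀ u ∈ S, ∀ v ∉ S, G.Adj u v → v ∈ Adh (pull T lev r φ) t := by
          intro u hu v hv huv
          have a1 := h.leave hu hv (hadj _ _ huv)
          exact back t ht v ⟨x1.1, a1.1⟩ ((h.mem_adh_iff ht).1 a1).2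
        obtain ⟨ρ⟩ := hc.preconnected x y
        obtain ⟨d, -, d1, d2⟩ := ρ.exists_boundary_dart S xS yS
        have hv := out _ d1 _ d2 d.adj
        have hU : (S ∪ {d.snd}) ∪ Sᶜ = Set.univ := Set.eq_univ_of_forall fun z => by
          by_cases a : z ∈ S
          · exact Or.inl (Or.inl a)
          · exact Or.inr a
        have hI : (S ∪ {d.snd}) ∩ Sᶜ = {d.snd} := by
          ext z
          constructor
          · rintro ⟨a | a, b⟩
            · exact absurd a b
            · exact a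
          · rintro rfl
            exact ⟨Or.inr rfl, d2⟩
        have hn : ∀ a b, a ∉ Sᶜ → b ∉ S ∪ {d.snd} → ¬ G.Adj a b := fun a b ha hb hab =>
          hb (Or.inr (hsub (out a (not_not.1 ha) b (fun e => hb (Or.inl e)) hab) hv))
        have hcA := side_connected hc hU hI hn
        have hcB : (G.induce Sᶜ).Connected := side_connected hc
          (by rw [Set.union_comm]; exact hU) (by rw [Set.inter_comm]; exact hI)
          (fun a b ha hb h => hn b a hb ha h.symm)
        have yA : y ∉ S ∪ {d.snd} := by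
          rintro (a | a)
          · exact yS a
          · exact y2 (by rw [show y = d.snd from a]; exact hv.1)
        have l1 : Nat.card ↥(S ∪ {d.snd}) < Nat.card W := Finite.card_subtype_lt yA
        have l2 : Nat.card ↥Sᶜ < Nat.card W :=
          Finite.card_subtype_lt (x := x) (p := fun z => z ∈ Sᶜ) fun a => a xS
        exact distortion_vertexSum (lt_of_lt_of_le one_pos (le_max_right _ _)) hc hU hI hn
          (ih _ _ (fun z => φ z.1) (by omega) hcA (fun a b e => Subtype.ext (hφ e))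
            (fun a b hab => hadj _ _ hab) fun z => hx z.1)
          (ih _ _ (fun z => φ z.1) (by omega) hcB (fun a b e => Subtype.ext (hφ e))
            (fun a b hab => hadj _ _ hab) fun z => hx z.1)
      · let E : SimpleGraph W :=
          { Adj := fun x y => x ≠ y ∧ ∃ s < n, x ∈ Adh (pull T lev r φ) s ∧
              y ∈ Adh (pull T lev r φ) s
            symm := ⟨fun _ _ ⟨a, s, b, c, d⟩ => ⟨a.symm, s, b, d, c⟩⟩
            loopless := ⟨fun _ a => a.1 rfl⟩ }
        have hle : G ≤ H.comap φ := fun x y hxy => hadj x y hxy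
        have hH : (H.comap φ).Connected := hc.mono hle
        refine DistortionLE.mono (DistortionLE.emb id Function.injective_id
          (fun x y hxy => hle hxy) hH hc (hK₀ W (H.comap φ) E hH ?_)) (le_max_left _ _)
        refine msum_of (E := E) hg (fun x y ⟨a, s, b, c, d⟩ => hg.clique s b x c y d a)
          (fun t ht x a y b e => ⟨e, t, ht, a, b⟩) (fun t ht a b c => hs ⟨t, ht, a, b, c⟩)
          (fun U _ G' F => Or.inl fun a => (a.nonempty.elim fun u => isEmptyElim u))
          (fun t ht U _ ι hι hU => ?_) n le_rfl W id Function.injective_id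
          fun x => ⟨fun _ => ⟨x, rfl⟩, fun _ => hg.cover x⟩
        rcases isEmpty_or_nonempty U with hE | ⟨⟨u0⟩⟩
        · exact Or.inl fun a => (a.nonempty.elim fun u => isEmptyElim u)
        have hQ := (hU u0).1
        have hψ : Function.Injective fun u : U => (⟨φ (ι u), (hU u).2⟩ : B t) :=
          fun a b e => hι (hφ (congrArg (fun z : B t => z.1) e))
        rcases (hk t ht hQ.2).2 with a1 | ⟨a1, a2, a3⟩
        · exact Or.inl fun hc' => (hD U _ hc' (Or.inr (Or.inr
            (surf3_comap (H := H.induce (B t)) _ hψ (fun a b hab => hab) a1)))).1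
        refine Or.inr ⟨fun hc' => hA _ (H.induce (B t)) a1 U _ _ hc' hψ (fun a b hab => hab),
          (Set.toFinite ({u | φ (ι u) ∈ M₁ t} ∪ {u | ι u ∈ Adh (pull T lev r φ) t})).toFinset,
          ?_, ?_⟩
        · rw [← Set.ncard_eq_toFinset_card]
          refine (Set.ncard_union_le _ _).trans (add_le_add ?_ ?_)
          · exact (Set.ncard_le_ncard_of_injOn (fun u => φ (ι u)) (fun _ a => a)
              (hφ.comp hι).injOn).trans (hM₁ t hQ.2 a2 a3)
          · exact (Set.ncard_le_ncard_of_injOn ι (fun _ a => a) hι.injOn).trans (hg.card t ht)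
        · rintro u v ⟨hne, s, hs', u1, v1⟩
          simp only [Set.Finite.mem_toFinset]
          by_contra hcon
          obtain ⟨u2, v2⟩ := not_or.1 hcon
          have e : h.it (φ (ι u)) = t := by
            by_contra a
            exact u2 (Or.inr (back t ht _ (hU u) (lt_of_le_of_ne (h.it_le ht (hU u).2) a)))
          have d1 : T.Desc t s := e ▸ h.desc_of_mem (T := T) hs' u1.1.2
          obtain ⟨c', c1, c2, c3⟩ := exists_child s hs' d1 fun a => u2 (Or.inr (by
            show ι u ∈ Adh (pull T lev r φ) t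
            rw [a]
            exact u1))
          have c4 : c' < n := lt_of_le_of_lt c3.le hs'
          have c5 : lev c' = lev r := by
            have b1 := lev_mono hm s hs' c3
            have b2 := hm c' c4
            have b3 := u1.1.1.2
            have b4 := hQ.2
            rw [c1] at b2
            omega
          have key : ∀ z : U, ι z ∈ Adh (pull T lev r φ) s → φ (ι z) ∈ Adh B c' := by
            intro z hz
            refine (h.mem_sub_or hs' c3 hz.1.2).resolve_left fun a => ?_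
            have b1 : c' ≤ h.it (φ (ι z)) := BTree.Desc.le a
            have b2 := h.it_le ht (hU z).2
            omega
          by_cases hb : (Adh B c' \ (M t ∪ Adh B t)).Subsingleton
          · have key2 : ∀ z : U, ι z ∈ Adh (pull T lev r φ) s →
                z ∉ {u | φ (ι u) ∈ M₁ t} ∪ {u | ι u ∈ Adh (pull T lev r φ) t} →
                φ (ι z) ∈ Adh B c' \ (M t ∪ Adh B t) := by
              intro z z1 z2
              refine ⟨key z z1, ?_⟩
              rintro (a | a)
              · exact z2 (Or.inl (Or.inl a))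
              · exact z2 (Or.inr (back t ht _ (hU z) ((h.mem_adh_iff ht).1 a).2))
            exact hne (hφ (hb (key2 u u1 u2) (key2 v v1 v2)))
          · refine u2 (Or.inl (Or.inr ?_))
            exact Set.mem_biUnion ((hfin _).mem_toFinset.2 ⟨c4, by omega, c1, c5, hb⟩) (key u u1)
  exact fun W _ G φ => main _ W G φ (Nat.lt_succ_self _)

theorem centres (c : ℕ) {V : Type} {n : ℕ} {B : ℕ → Set V} (T : BTree n B) (lev : ℕ → ℕ) :
    ∃ M : ℕ → Set V, ∀ t i, lev t = i → Centred c T lev t → (M t).ncard ≤ c ∧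
      {s | s < n ∧ 0 < s ∧ T.par s = t ∧ lev s = i ∧
        ¬ (Adh B s \ (M t ∪ Adh B t)).Subsingleton}.ncard ≤ c := by
  have : ∀ t, ∃ M : Set V, Centred c T lev t → M.ncard ≤ c ∧
      {s | s < n ∧ 0 < s ∧ T.par s = t ∧ lev s = lev t ∧
        ¬ (Adh B s \ (M ∪ Adh B t)).Subsingleton}.ncard ≤ c := by
    intro t
    by_cases h : Centred c T lev t
    · obtain ⟨M, hM⟩ := h
      exact ⟨M, fun _ => hM⟩
    · exact ⟨∅, fun a => absurd a h⟩
  choose M hM using this
  refine ⟨M, ?_⟩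
  rintro t i rfl h
  exact hM t h

theorem levels (a g p w k c q : ℕ) : ∃ C : ℝ, ∀ (V : Type) [Finite V] (G H : SimpleGraph V)
    (m n : ℕ) (B : ℕ → Set V) (T : BTree n B) (lev : ℕ → ℕ), G.Connected → G ≤ H →
    Glued m H n B → Levels a g p w k c q H T lev → Bd G C := by
  obtain ⟨A₁, h1⟩ := tw_case k
  obtain ⟨A₂, h2⟩ := cen_case a g p w k c
  obtain ⟨A₃, h3⟩ := mix_case a g p w k c
  obtain ⟨C, hC⟩ := level_ind (max A₁ (max A₂ A₃)) (q + 1)
  refine ⟨C, fun V _ G H m n B T lev hc hGH h L => bd_of hc ?_⟩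
  obtain ⟨v⟩ := hc.nonempty
  have hn : 0 < n := lt_of_le_of_lt (Nat.zero_le _) (h.it_lt v)
  obtain ⟨M, hM⟩ := centres c T lev
  refine hC V H m n B h T lev q L.mono L.le (fun r _ => ?_) 0 hn (by omega) V G id hc
    Function.injective_id (fun x y hxy => hGH hxy) fun x => BTree.Desc.zero _ (h.it_lt x)
  rcases L.kind (lev r) with a1 | a1 | a1
  · exact (h1 V H m n B h T lev r a1).mono (le_max_left _ _)
  · exact (h2 V H m n B h T lev r M L.mono fun t ht e =>
      ⟨(a1 t ht e).1, hM t _ e (a1 t ht e).2⟩).mono ((le_max_left _ _).trans (le_max_right _ _))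
  · exact (h3 V H m n B h T lev r M L.mono fun t ht e =>
      ⟨(a1 t ht e).1, (a1 t ht e).2.imp id fun b => ⟨b.1, hM t _ e b.2⟩⟩).mono
      ((le_max_right _ _).trans (le_max_right _ _))

end Vale.Agent.P235T
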